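import Mathlib

/-!
# P155, block BD: a Harnack chain for bounded holomorphic functions

`harnack`: if `K ⊆ Ω` is compact, there are a compact `C ⊆ Ω` and `c > 0` such that
`c (1 - |g x0|) ≤ 1 - |g z|` for all `z ∈ K` and all holomorphic `g` with `|g| < 1` on a
neighbourhood of `C`.
-/

namespace Vale.Agent.P155.BD276

open Set Metric Filter Topology ComplexConjugate

theorem mob_id (a w : ℂ) :
    ‖1 - conj a * w‖ ^ 2 - ‖w - a‖ ^ 2 = (1 - ‖a‖ ^ 2) * (1 - ‖w‖ ^ 2) := by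
  simp only [← Complex.normSq_eq_norm_sq, Complex.normSq_apply, Complex.sub_re, Complex.sub_im,
    Complex.one_re, Complex.one_im, Complex.mul_re, Complex.mul_im, Complex.conj_re,
    Complex.conj_im]
  ring

theorem den_ne {a w : ℂ} (ha : ‖a‖ < 1) (hw : ‖w‖ < 1) : 1 - conj a * w ≠ 0 := by
  intro h
  have h1 := mob_id a w
  rw [h, norm_zero] at h1
  have h2 : 0 < (1 - ‖a‖ ^ 2) * (1 - ‖w‖ ^ 2) := by
    apply mul_pos <;> nlinarith [norm_nonneg a, norm_nonneg w]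
  nlinarith [sq_nonneg ‖w - a‖]

theorem mob_lt {a w : ℂ} (ha : ‖a‖ < 1) (hw : ‖w‖ < 1) : ‖(w - a) / (1 - conj a * w)‖ < 1 := by
  rw [norm_div, div_lt_one (norm_pos_iff.2 (den_ne ha hw))]
  have h1 := mob_id a w
  have h2 : 0 < (1 - ‖a‖ ^ 2) * (1 - ‖w‖ ^ 2) := by
    apply mul_pos <;> nlinarith [norm_nonneg a, norm_nonneg w]
  exact lt_of_pow_lt_pow_left₀ 2 (norm_nonneg _) (by linarith)

/-- one step of the chain -/
theorem harnack_step {g : ℂ → ℂ} {p q : ℂ} {ε : ℝ} (hε : 0 < ε)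
    (hg : DifferentiableOn ℂ g (ball p ε)) (hm : ∀ z ∈ ball p ε, ‖g z‖ < 1)
    (hq : dist q p ≤ ε / 2) : (1 - ‖g p‖) / 6 ≤ 1 - ‖g q‖ := by
  have hp : p ∈ ball p ε := mem_ball_self hε
  have hqb : q ∈ ball p ε := by
    rw [mem_ball]
    linarith
  set a := g p with ha
  have ha1 : ‖a‖ < 1 := hm p hp
  have hb1 : ‖g q‖ < 1 := hm q hqb
  set h : ℂ → ℂ := fun z => (g z - a) / (1 - conj a * g z) with hh
  have hd : DifferentiableOn ℂ h (ball p ε) := by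
    refine DifferentiableOn.div (hg.sub_const a) ?_ ?_
    · exact (differentiableOn_const 1).sub (hg.const_mul (conj a))
    · intro z hz
      exact den_ne ha1 (hm z hz)
  have hmaps : MapsTo h (ball p ε) (ball (h p) 1) := by
    intro z hz
    have : h p = 0 := by simp [hh, ha]
    rw [this, mem_ball_zero_iff]
    exact mob_lt ha1 (hm z hz)
  have hS := Complex.dist_le_div_mul_dist_of_mapsTo_ball hd
    (hmaps.mono_right ball_subset_closedBall) hqb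
  have hp0 : h p = 0 := by simp [hh, ha]
  rw [hp0, dist_zero_right] at hS
  have hS2 : ‖h q‖ ≤ 1 / 2 := by
    refine hS.trans ?_
    rw [one_div_mul_eq_div, div_le_div_iff₀ hε two_pos]
    linarith
  -- `|q - a| ≤ |1 - ā q| / 2`
  have hden : 0 < ‖1 - conj a * g q‖ := norm_pos_iff.2 (den_ne ha1 hb1)
  have h3 : ‖g q - a‖ ≤ 1 / 2 * ‖1 - conj a * g q‖ := by
    have : ‖h q‖ = ‖g q - a‖ / ‖1 - conj a * g q‖ := by rw [hh]; exact norm_div _ _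
    rw [this, div_le_iff₀ hden] at hS2
    exact hS2
  have h4 := mob_id a (g q)
  have h5 : 1 - ‖a‖ ≤ ‖1 - conj a * g q‖ := by
    have h6 := norm_sub_norm_le (1 : ℂ) (conj a * g q)
    rw [norm_one, norm_mul, Complex.norm_conj] at h6
    have : ‖a‖ * ‖g q‖ ≤ ‖a‖ := by nlinarith [norm_nonneg a]
    linarith
  -- (1-|a|²)(1-|b|²) ≥ 3/4 |1-āb|² ≥ 3/4 (1-|a|)²
  have h7 : 3 / 4 * (1 - ‖a‖) ^ 2 ≤ (1 - ‖a‖ ^ 2) * (1 - ‖g q‖ ^ 2) := by
    have h8 : ‖g q - a‖ ^ 2 ≤ 1 / 4 * ‖1 - conj a * g q‖ ^ 2 := by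
      nlinarith [norm_nonneg (g q - a), norm_nonneg (1 - conj a * g q)]
    have h9 : (1 - ‖a‖) ^ 2 ≤ ‖1 - conj a * g q‖ ^ 2 := by
      have : 0 ≤ 1 - ‖a‖ := by linarith
      nlinarith
    linarith
  have h10 : 0 < 1 - ‖a‖ := by linarith
  have h11 : 3 / 4 * (1 - ‖a‖) ≤ (1 + ‖a‖) * (1 - ‖g q‖ ^ 2) := by
    have : 3 / 4 * (1 - ‖a‖) * (1 - ‖a‖) ≤ (1 + ‖a‖) * (1 - ‖g q‖ ^ 2) * (1 - ‖a‖) := by
      nlinarith
    exact le_of_mul_le_mul_right this h10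
  have h12 : 0 ≤ ‖g q‖ := norm_nonneg _
  have h13 : (1 + ‖a‖) * (1 - ‖g q‖ ^ 2) ≤ 2 * (2 * (1 - ‖g q‖)) := by
    have e : 1 - ‖g q‖ ^ 2 = (1 - ‖g q‖) * (1 + ‖g q‖) := by ring
    rw [e]
    have h14 : (1 - ‖g q‖) * (1 + ‖g q‖) ≤ (1 - ‖g q‖) * 2 :=
      mul_le_mul_of_nonneg_left (by linarith) (by linarith)
    have h15 : 0 ≤ (1 - ‖g q‖) * (1 + ‖g q‖) := mul_nonneg (by linarith) (by linarith)
    nlinarith
  linarith

/-- Harnack's inequality on `s`, from the point `x0`, inside `Ω` -/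
def HC (Ω : Set ℂ) (x0 : ℂ) (s : Set ℂ) : Prop :=
  ∃ C, IsCompact C ∧ C ⊆ Ω ∧ ∃ c > 0, ∀ D, C ⊆ D → ∀ g : ℂ → ℂ, DifferentiableOn ℂ g D →
    (∀ z ∈ D, ‖g z‖ < 1) → ∀ z ∈ s, c * (1 - ‖g x0‖) ≤ 1 - ‖g z‖

theorem HC.mono {Ω : Set ℂ} {x0 : ℂ} {s t : Set ℂ} (h : HC Ω x0 t) (hst : s ⊆ t) : HC Ω x0 s := by
  obtain ⟨C, h1, h2, c, h3, h4⟩ := h
  exact ⟨C, h1, h2, c, h3, fun D hD g hg hm z hz => h4 D hD g hg hm z (hst hz)⟩

theorem HC.union {Ω : Set ℂ} {x0 : ℂ} (hx0 : x0 ∈ Ω) {s t : Set ℂ} (h : HC Ω x0 s)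
    (h' : HC Ω x0 t) : HC Ω x0 (s ∪ t) := by
  obtain ⟨C, h1, h2, c, h3, h4⟩ := h
  obtain ⟨C', h1', h2', c', h3', h4'⟩ := h'
  refine ⟨C ∪ C' ∪ {x0}, (h1.union h1').union isCompact_singleton,
    union_subset (union_subset h2 h2') (singleton_subset_iff.2 hx0), min c c', lt_min h3 h3', ?_⟩
  intro D hD g hg hm z hz
  have hx : 0 < 1 - ‖g x0‖ := by
    have := hm x0 (hD (Or.inr rfl))
    linarith
  rcases hz with hz | hz
  · refine le_trans ?_ (h4 D (fun y hy => hD (Or.inl (Or.inl hy))) g hg hm z hz)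
    exact mul_le_mul_of_nonneg_right (min_le_left _ _) hx.le
  · refine le_trans ?_ (h4' D (fun y hy => hD (Or.inl (Or.inr hy))) g hg hm z hz)
    exact mul_le_mul_of_nonneg_right (min_le_right _ _) hx.le

theorem HC.step {Ω : Set ℂ} {x0 z : ℂ} {ε : ℝ} (hε : 0 < ε) (hb : closedBall z ε ⊆ Ω)
    (h : HC Ω x0 {z}) : HC Ω x0 (closedBall z (ε / 2)) := by
  obtain ⟨C, h1, h2, c, h3, h4⟩ := h
  refine ⟨C ∪ closedBall z ε, h1.union (isCompact_closedBall z ε), union_subset h2 hb, c / 6,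
    by positivity, ?_⟩
  intro D hD g hg hm y hy
  have h5 := h4 D (fun y hy => hD (Or.inl hy)) g hg hm z rfl
  have hball : ball z ε ⊆ D := fun w hw => hD (Or.inr (ball_subset_closedBall hw))
  have h6 := harnack_step hε (hg.mono hball) (fun w hw => hm w (hball hw)) (mem_closedBall.1 hy)
  linarith

theorem hc_local {Ω : Set ℂ} (hΩ : IsOpen Ω) (hc : IsPreconnected Ω) {x0 : ℂ} (hx0 : x0 ∈ Ω)
    {z : ℂ} (hz : z ∈ Ω) : ∃ t ∈ 𝓝 z, HC Ω x0 t := by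
  set u : Set ℂ := {z | ∃ t ∈ 𝓝 z, HC Ω x0 t} with hu
  have huo : IsOpen u := by
    rw [isOpen_iff_mem_nhds]
    rintro y ⟨t, ht, hHC⟩
    have := eventually_eventually_nhds.2 (show ∀ᶠ w in 𝓝 y, w ∈ t from ht)
    filter_upwards [this] with w hw
    exact ⟨t, hw, hHC⟩
  have h0 : HC Ω x0 {x0} := by
    refine ⟨{x0}, isCompact_singleton, singleton_subset_iff.2 hx0, 1, one_pos, ?_⟩
    rintro D hD g hg hm y rfl
    rw [one_mul]
  have hx0u : x0 ∈ u := by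
    obtain ⟨ε, hε, hb⟩ := nhds_basis_closedBall.mem_iff.1 (hΩ.mem_nhds hx0)
    exact ⟨closedBall x0 (ε / 2), closedBall_mem_nhds x0 (half_pos hε), h0.step hε hb⟩
  refine hc.subset_of_closure_inter_subset huo ⟨x0, hx0, hx0u⟩ ?_ hz
  rintro y ⟨hy, hyΩ⟩
  obtain ⟨ε, hε, hb⟩ := nhds_basis_closedBall.mem_iff.1 (hΩ.mem_nhds hyΩ)
  obtain ⟨y', ⟨t, ht, hHC⟩, hd⟩ := Metric.mem_closure_iff.1 hy (ε / 8) (by positivity)
  have h1 : HC Ω x0 {y'} := hHC.mono (singleton_subset_iff.2 (mem_of_mem_nhds ht))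
  have h2 : closedBall y' (ε / 2) ⊆ Ω := by
    refine (closedBall_subset_closedBall' ?_).trans hb
    rw [dist_comm] at hd
    linarith
  refine ⟨closedBall y' (ε / 2 / 2), ?_, h1.step (half_pos hε) h2⟩
  refine mem_of_superset (ball_mem_nhds y (show 0 < ε / 8 by positivity)) ?_
  refine (ball_subset_closedBall).trans (closedBall_subset_closedBall' ?_)
  linarith

/-- **Harnack's inequality** on compact sets, uniformly in the domain. -/
theorem harnack {Ω : Set ℂ} (hΩ : IsOpen Ω) (hc : IsPreconnected Ω) {x0 : ℂ} (hx0 : x0 ∈ Ω)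
    {K : Set ℂ} (hK : IsCompact K) (hKΩ : K ⊆ Ω) : HC Ω x0 K := by
  refine hK.induction_on (p := fun s => HC Ω x0 s) ?_ (fun s t hst h => h.mono hst)
    (fun s t hs ht => hs.union hx0 ht) ?_
  · exact ⟨{x0}, isCompact_singleton, singleton_subset_iff.2 hx0, 1, one_pos,
      fun D _ g _ _ z hz => absurd hz (notMem_empty z)⟩
  · intro z hz
    obtain ⟨t, ht, h⟩ := hc_local hΩ hc hx0 (hKΩ hz)
    exact ⟨t, mem_nhdsWithin_of_mem_nhds ht, h⟩

end Vale.Agent.P155.BD276
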