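import Vale.Agent.P155.BD276.Bridge
import Vale.Agent.P155.BD.Props2

/-!
# P155, block BD: the inputs `CHAIN`, `AREA` of the final assembly
-/

namespace Vale.Agent.P155.BD276

open Set Metric Filter Topology Skel T733

theorem bsz_eq (T : Temp) (f : ℂ → ℂ) (K : ℕ × ℕ) : BD.bsz T f K = BD.dU T (f (cen K)) := rfl

/-- [AREA] -/
theorem area : BD.AREA :=
  ⟨5760000, by norm_num, fun _ _ hR1 hR _ _ h N => area_le hR1 hR h N⟩

theorem exists_top (n : ℕ) {d : ℝ} (hd : d ≤ 2) :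
    ∃ m ≤ n, (m = 0 ∨ 40 * (1 / 2 : ℝ) ^ (n - m) ≤ d) ∧ d ≤ 80 * (1 / 2 : ℝ) ^ (n - m) := by
  classical
  by_cases h0 : 40 * (1 / 2 : ℝ) ^ n ≤ d
  · set P : ℕ → Prop := fun m => 40 * (1 / 2 : ℝ) ^ (n - m) ≤ d with hP
    set m := Nat.findGreatest P n with hm
    have hP0 : P 0 := by simp only [hP, Nat.sub_zero]; exact h0
    have hPm : P m := Nat.findGreatest_spec (Nat.zero_le n) hP0
    have hle : m ≤ n := Nat.findGreatest_le n
    have hne : m ≠ n := by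
      intro h
      rw [h] at hPm
      simp only [hP, Nat.sub_self, pow_zero] at hPm
      linarith
    have hlt : m < n := lt_of_le_of_ne hle hne
    have hnot : ¬ P (m + 1) := fun h => by
      have := Nat.le_findGreatest (P := P) hlt h
      omega
    refine ⟨m, hle, Or.inr hPm, ?_⟩
    simp only [hP, not_le] at hnot
    have e : (1 / 2 : ℝ) ^ (n - m) = (1 / 2) ^ (n - (m + 1)) * (1 / 2) := by
      rw [← pow_succ]
      congr 1
      omega
    rw [e]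
    linarith
  · push Not at h0
    refine ⟨0, Nat.zero_le _, Or.inl rfl, ?_⟩
    rw [Nat.sub_zero]
    have : (0 : ℝ) < (1 / 2) ^ n := by positivity
    linarith

/-- [CHAIN] -/
theorem chain : BD.CHAIN := by
  refine ⟨2 * Real.exp 200 + Real.exp (220 * 162), by positivity, ?_⟩
  intro T f φ h I I' _ _ z₁ hz₁ z₂ hz₂
  have n1 := dbox_norm hz₁
  have n2 := dbox_norm hz₂
  have p1 : (0 : ℝ) < (1 / 2) ^ (I.1 + 1) := by positivity
  have p2 : (0 : ℝ) < (1 / 2) ^ (I'.1 + 1) := by positivity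
  have hd2 : ‖z₁ - z₂‖ ≤ 2 := by
    have := norm_sub_le z₁ z₂
    linarith
  obtain ⟨m, hm, ha, hb⟩ := exists_top I.1 hd2
  obtain ⟨m', hm', ha', hb'⟩ := exists_top I'.1 hd2
  refine ⟨m, hm, m', hm', ha, ha', ?_⟩
  have q1 : (1 / 2 : ℝ) ^ I.1 ≤ (1 / 2) ^ (I.1 - m) :=
    pow_le_pow_of_le_one (by norm_num) (by norm_num) (Nat.sub_le _ _)
  have q2 : (1 / 2 : ℝ) ^ I'.1 ≤ (1 / 2) ^ (I'.1 - m') :=
    pow_le_pow_of_le_one (by norm_num) (by norm_num) (Nat.sub_le _ _)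
  have r1 : (0 : ℝ) < (1 / 2) ^ (I.1 - m) := by positivity
  have r2 : (0 : ℝ) < (1 / 2) ^ (I'.1 - m') := by positivity
  have t1 : ‖z₁‖ ≤ ‖z₂‖ + ‖z₁ - z₂‖ := by
    have := norm_le_norm_add_norm_sub' z₁ z₂
    linarith
  have t2 : ‖z₂‖ ≤ ‖z₁‖ + ‖z₁ - z₂‖ := by
    have := norm_le_norm_add_norm_sub' z₂ z₁
    rw [norm_sub_rev] at this
    linarith
  rw [pow_succ] at n1 n2
  have h1 : (1 / 2 : ℝ) ^ (I.1 - m) ≤ 162 * (1 / 2) ^ (I'.1 - m') := by
    rcases ha with h0 | h0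
    · have e : (1 / 2 : ℝ) ^ (I.1 - m) = (1 / 2) ^ I.1 := by rw [h0, Nat.sub_zero]
      linarith [n1.1, n2.2]
    · linarith
  have h2 : (1 / 2 : ℝ) ^ (I'.1 - m') ≤ 162 * (1 / 2) ^ (I.1 - m) := by
    rcases ha' with h0 | h0
    · have e : (1 / 2 : ℝ) ^ (I'.1 - m') = (1 / 2) ^ I'.1 := by rw [h0, Nat.sub_zero]
      linarith [n2.1, n1.2]
    · linarith
  exact chain_le h (by norm_num) hm hm' hz₁ hz₂ h1 h2 (by linarith) (by linarith)

end Vale.Agent.P155.BD276
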