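import Vale.Agent.P155.BD276.Static

/-!
# P155, block BD: the sum of the squares of the sizes of the boxes
-/

namespace Vale.Agent.P155.BD276

open Set Metric Filter Topology ComplexConjugate MeasureTheory
open T733

variable {D : Set ℂ} {f g : ℂ → ℂ}

/-- radius of the ball in a box -/
noncomputable def rad (K : ℕ × ℕ) : ℝ := (1 / 2) ^ K.1 / 16

theorem rad_pos (K : ℕ × ℕ) : 0 < rad K := by unfold rad; positivity

theorem rad_ball (K : ℕ × ℕ) : ball (cen K) (rad K) ⊆ ball 0 1 := by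
  intro w hw
  have h1 := norm_cen K
  have hp : (0 : ℝ) < (1 / 2) ^ K.1 := by positivity
  rw [mem_ball, dist_eq_norm] at hw
  have h2 := norm_le_norm_add_norm_sub' w (cen K)
  unfold rad at hw
  rw [mem_ball_zero_iff]
  linarith

theorem disj_gen {K K' : ℕ × ℕ} (h : K.1 < K'.1) :
    Disjoint (ball (cen K) (rad K)) (ball (cen K') (rad K')) := by
  rw [Set.disjoint_left]
  intro w h1 h2
  rw [mem_ball, dist_eq_norm] at h1 h2
  have e1 := norm_cen K
  have e2 := norm_cen K'
  have hp : (0 : ℝ) < (1 / 2) ^ K.1 := by positivity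
  have hp' : (0 : ℝ) < (1 / 2) ^ K'.1 := by positivity
  have hle : (1 / 2 : ℝ) ^ K'.1 ≤ (1 / 2) ^ (K.1 + 1) :=
    pow_le_pow_of_le_one (by norm_num) (by norm_num) h
  rw [pow_succ] at hle
  unfold rad at h1 h2
  have k1 := norm_le_norm_add_norm_sub' w (cen K)
  have k2 := norm_le_norm_add_norm_sub' (cen K') w
  rw [norm_sub_rev] at k2
  linarith

theorem disj_same {n j j' : ℕ} (hj : j < j') (hj' : j' < 2 ^ n) :
    Disjoint (ball (cen (n, j)) (rad (n, j))) (ball (cen (n, j')) (rad (n, j'))) := by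
  rw [Set.disjoint_left]
  intro w h1 h2
  rw [mem_ball, dist_eq_norm] at h1 h2
  have hn : 1 ≤ n := by
    rcases Nat.eq_zero_or_pos n with h | h
    · subst h
      simp at hj'
      omega
    · exact h
  have hp : (0 : ℝ) < (1 / 2) ^ n := by positivity
  have hp1 : (1 / 2 : ℝ) ^ n ≤ 1 / 2 := by
    calc (1 / 2 : ℝ) ^ n ≤ (1 / 2) ^ 1 := pow_le_pow_of_le_one (by norm_num) (by norm_num) hn
      _ = 1 / 2 := by norm_num
  have h3 : ‖cen (n, j') - cen (n, j)‖ < 2 * rad (n, j) := by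
    have e : cen (n, j') - cen (n, j) = (w - cen (n, j)) - (w - cen (n, j')) := by ring
    rw [e]
    have h4 : rad (n, j') = rad (n, j) := rfl
    have := norm_sub_le (w - cen (n, j)) (w - cen (n, j'))
    linarith
  set α : ℝ := ((j' : ℝ) + 1 / 2) * (1 / 2) ^ n with hα
  set β : ℝ := ((j : ℝ) + 1 / 2) * (1 / 2) ^ n with hβ
  have h5 : cen (n, j') - cen (n, j) = ((1 - 3 / 4 * (1 / 2) ^ n : ℝ) : ℂ) * (ee α - ee β) := by
    unfold cen
    simp only [← hα, ← hβ]
    ring
  have h6 := le_norm_ee_sub α β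
  have h7 : α - β = ((j' - j : ℕ) : ℝ) * (1 / 2) ^ n := by
    rw [hα, hβ, Nat.cast_sub hj.le]
    ring
  -- distance to the nearest integer
  have h2n : (0 : ℝ) < 2 ^ n := by positivity
  have hinv : (1 / 2 : ℝ) ^ n = 1 / 2 ^ n := by rw [one_div_pow]
  have h8 : (1 / 2 : ℝ) ^ n ≤ |α - β - round (α - β)| := by
    set q : ℤ := ((j' - j : ℕ) : ℤ) - round (α - β) * 2 ^ n with hq
    have hq0 : q ≠ 0 := by
      intro h0
      have hdvd : (2 ^ n : ℤ) ∣ ((j' - j : ℕ) : ℤ) := ⟨round (α - β), by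
        rw [mul_comm]
        linarith [h0, hq]⟩
      have hdvd' : 2 ^ n ∣ (j' - j) := by exact_mod_cast hdvd
      have := Nat.le_of_dvd (by omega) hdvd'
      omega
    have hq1 : (1 : ℝ) ≤ |(q : ℝ)| := by
      have : 1 ≤ |q| := Int.one_le_abs hq0
      exact_mod_cast this
    have e : α - β - round (α - β) = (q : ℝ) * (1 / 2) ^ n := by
      rw [hq, h7, hinv]
      push_cast
      field_simp
    rw [e, abs_mul, abs_of_pos hp]
    nlinarith
  rw [h5, norm_mul, Complex.norm_real, Real.norm_eq_abs, abs_of_nonneg (by linarith)] at h3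
  have h9 : (5 / 8 : ℝ) * (4 * (1 / 2) ^ n) ≤
      (1 - 3 / 4 * (1 / 2) ^ n) * ‖ee α - ee β‖ :=
    mul_le_mul (by linarith) (by linarith) (by positivity) (by linarith)
  have h10 : rad (n, j) = (1 / 2) ^ n / 16 := rfl
  rw [h10] at h3
  linarith

theorem disj {N : ℕ} {K K' : ℕ × ℕ} (hK : K ∈ boxes N) (hK' : K' ∈ boxes N) (h : K ≠ K') :
    Disjoint (ball (cen K) (rad K)) (ball (cen K') (rad K')) := by
  rw [mem_boxes] at hK hK'
  rcases lt_trichotomy K.1 K'.1 with h1 | h1 | h1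
  · exact disj_gen h1
  · obtain ⟨n, j⟩ := K
    obtain ⟨n', j'⟩ := K'
    simp only at h1 hK hK'
    subst h1
    rcases lt_trichotomy j j' with h2 | h2 | h2
    · exact disj_same h2 hK'.2
    · exact absurd (by rw [h2]) h
    · exact (disj_same h2 hK.2).symm
  · exact (disj_gen h1).symm

theorem CPair.ball_img (h : CPair D f g) (K : ℕ × ℕ) :
    ball (f (cen K)) (size D f K / 240) ⊆ f '' ball (cen K) (rad K) := by
  have hc : cen K ∈ ball (0 : ℂ) 1 := dbox_ball (cen_mem K)
  have hp : (0 : ℝ) < (1 / 2) ^ K.1 := by positivity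
  have h1 := koebe_image (rad_pos K) (h.hf.mono (rad_ball K)) (h.inj.mono (rad_ball K))
  refine (ball_subset_ball ?_).trans h1
  have h2 := h.schwarz hc
  have h3 := norm_cen K
  have h4 : ‖cen K‖ < 1 := mem_ball_zero_iff.1 hc
  have h5 : (1 - ‖cen K‖ ^ 2) ≤ 3 / 2 * (1 / 2) ^ K.1 := by
    have : (1 - ‖cen K‖ ^ 2) = (1 - ‖cen K‖) * (1 + ‖cen K‖) := by ring
    rw [this, h3]
    have h6 : 1 + ‖cen K‖ ≤ 2 := by linarith
    have : 3 / 4 * (1 / 2 : ℝ) ^ K.1 * (1 + ‖cen K‖) ≤ 3 / 4 * (1 / 2 : ℝ) ^ K.1 * 2 :=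
      mul_le_mul_of_nonneg_left h6 (by positivity)
    linarith
  have h6 : size D f K ≤ 3 / 2 * (1 / 2) ^ K.1 * ‖deriv f (cen K)‖ :=
    h2.trans (mul_le_mul_of_nonneg_right h5 (norm_nonneg _))
  unfold rad
  linarith

/-- **The sum of the squares of the sizes of the boxes.** -/
theorem CPair.area (h : CPair D f g) (hv : volume D ≠ ⊤) (N : ℕ) :
    ∑ K ∈ boxes N, size D f K ^ 2 ≤ 57600 * (volume D).toReal := by
  classical
  have hdisj : (boxes N : Set (ℕ × ℕ)).PairwiseDisjoint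
      (fun K => ball (f (cen K)) (size D f K / 240)) := by
    intro K hK K' hK' hne
    refine Disjoint.mono (h.ball_img K) (h.ball_img K') ?_
    rw [Set.disjoint_left]
    rintro _ ⟨x, hx, rfl⟩ ⟨y, hy, hxy⟩
    have e : y = x := h.inj (rad_ball K' hy) (rad_ball K hx) hxy
    subst e
    exact Set.disjoint_left.1 (disj hK hK' hne) hx hy
  have hsub : (⋃ K ∈ boxes N, ball (f (cen K)) (size D f K / 240)) ⊆ D := by
    intro z hz
    rw [mem_iUnion₂] at hz
    obtain ⟨K, _, hz⟩ := hz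
    obtain ⟨y, hy, rfl⟩ := h.ball_img K hz
    exact (h.fD y (rad_ball K hy)).1
  have h1 := measure_biUnion_finset (μ := (volume : Measure ℂ)) hdisj
    (fun K _ => measurableSet_ball)
  have h2 : ∑ K ∈ boxes N, volume (ball (f (cen K)) (size D f K / 240)) ≤ volume D := by
    rw [← h1]
    exact measure_mono hsub
  have h3 : ∀ K ∈ boxes N, size D f K ^ 2 / 57600 ≤
      (volume (ball (f (cen K)) (size D f K / 240))).toReal := by
    intro K _
    have hs := size_nonneg (D := D) (f := f) K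
    rw [Complex.volume_ball, ENNReal.toReal_mul, ENNReal.toReal_pow,
      ENNReal.toReal_ofReal (by positivity)]
    have hpi : (1 : ℝ) ≤ ((NNReal.pi : ENNReal)).toReal := by
      rw [ENNReal.coe_toReal, NNReal.coe_real_pi]
      linarith [Real.pi_gt_three]
    have e : (size D f K / 240) ^ 2 = size D f K ^ 2 / 57600 := by ring
    rw [e]
    have : 0 ≤ size D f K ^ 2 / 57600 := by positivity
    nlinarith
  have hfin : ∀ K ∈ boxes N, volume (ball (f (cen K)) (size D f K / 240)) ≠ ⊤ := by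
    intro K hK
    exact measure_ball_lt_top.ne
  have h4 : (∑ K ∈ boxes N, volume (ball (f (cen K)) (size D f K / 240))).toReal ≤
      (volume D).toReal := ENNReal.toReal_mono hv h2
  rw [ENNReal.toReal_sum hfin] at h4
  have h5 := (Finset.sum_le_sum h3).trans h4
  rw [← Finset.sum_div, div_le_iff₀ (by norm_num)] at h5
  linarith

end Vale.Agent.P155.BD276
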