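import Vale.Agent.P155.BD276.Area
import Vale.Agent.P155.BD.Props
import Vale.Agent.P155.K.Conn2

/-!
# P155, block BD: the static half in lattice units

`cpair`, `area_le`, `stat : BD.STAT`, `gen_le`.
-/

namespace Vale.Agent.P155.BD276

open Set Metric Filter Topology ComplexConjugate MeasureTheory Skel
open T733 BD

theorem isCompact_region1 (T : Temp) : IsCompact (region 1 0 T.faceSet) :=
  KConn.isCompact_region one_pos (A1.faceSet_finite T)

/-- a Riemann map of the polygon is a conformal pair -/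
theorem cpair {T : Temp} {f φ : ℂ → ℂ} (h : RM T f φ) : CPair (UU T) f φ where
  opn := isOpen_interior
  ne := by
    by_contra hne
    rw [not_nonempty_iff_eq_empty, compl_empty_iff] at hne
    have h1 : Bornology.IsBounded (univ : Set ℂ) := by
      rw [← hne]
      exact (isCompact_region1 T).isBounded.subset interior_subset
    exact NormedSpace.unbounded_univ ℝ ℂ h1
  hf := h.hf
  hg := h.hφ
  fD := fun w hw => ⟨h.maps w hw, h.left w hw⟩
  gB := fun z hz => ⟨h.maps' z hz, h.right z hz⟩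

theorem del_eq {T : Temp} {f : ℂ → ℂ} (w : ℂ) : del (UU T) f w = dU T (f w) := rfl

theorem size_eq {T : Temp} {f : ℂ → ℂ} (K : ℕ × ℕ) : size (UU T) f K = dU T (f (cen K)) := rfl

theorem UU_sub {T : Temp} {R : ℕ} (hR : Fits T R) : UU T ⊆ ball (0 : ℂ) (2 * (R + 1) + 1) := by
  intro z hz
  have h1 := interior_subset hz
  unfold region at h1
  rw [mem_iUnion₂] at h1
  obtain ⟨x, hx, s, t, hs0, hs1, ht0, ht1, rfl⟩ := h1
  have h2 := hR hx
  unfold box at h2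
  simp only [Finset.coe_product, Finset.coe_Icc, mem_prod, mem_Icc] at h2
  obtain ⟨⟨a1, a2⟩, a3, a4⟩ := h2
  have b1 : (-(R : ℝ)) ≤ x.1 := by
    have : -(R : ℤ) ≤ x.1 := by linarith
    exact_mod_cast this
  have b2 : (x.1 : ℝ) ≤ R := by
    have : x.1 ≤ (R : ℤ) := by linarith
    exact_mod_cast this
  have b3 : (-(R : ℝ)) ≤ x.2 := by
    have : -(R : ℤ) ≤ x.2 := by linarith
    exact_mod_cast this
  have b4 : (x.2 : ℝ) ≤ R := by
    have : x.2 ≤ (R : ℤ) := by linarith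
    exact_mod_cast this
  rw [mem_ball_zero_iff, zero_add, Complex.ofReal_one, one_mul]
  refine lt_of_le_of_lt (norm_add_le _ _) ?_
  rw [norm_mul, Complex.norm_I, mul_one]
  have c1 : ‖(((x.1 : ℝ) + s : ℝ) : ℂ)‖ ≤ R + 1 := by
    rw [Complex.norm_real, Real.norm_eq_abs, abs_le]
    constructor <;> linarith
  have c2 : ‖(((x.2 : ℝ) + t : ℝ) : ℂ)‖ ≤ R + 1 := by
    rw [Complex.norm_real, Real.norm_eq_abs, abs_le]
    constructor <;> linarith
  linarith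

theorem vol_UU {T : Temp} {R : ℕ} (hR1 : 1 ≤ R) (hR : Fits T R) :
    volume (UU T) ≠ ⊤ ∧ (volume (UU T)).toReal ≤ 100 * (R : ℝ) ^ 2 := by
  have h1 : volume (UU T) ≤ volume (ball (0 : ℂ) (2 * (R + 1) + 1)) := measure_mono (UU_sub hR)
  have h2 : volume (ball (0 : ℂ) (2 * (R + 1) + 1)) ≠ ⊤ := measure_ball_lt_top.ne
  have h3 : (1 : ℝ) ≤ R := by exact_mod_cast hR1
  refine ⟨ne_top_of_le_ne_top h2 h1, (ENNReal.toReal_mono h2 h1).trans ?_⟩
  rw [Complex.volume_ball, ENNReal.toReal_mul, ENNReal.toReal_pow,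
    ENNReal.toReal_ofReal (by positivity), ENNReal.coe_toReal, NNReal.coe_real_pi]
  have h4 : (2 * ((R : ℝ) + 1) + 1) ^ 2 ≤ 25 * (R : ℝ) ^ 2 := by nlinarith
  have h5 := Real.pi_lt_d2
  have h6 := Real.pi_pos
  calc (2 * ((R : ℝ) + 1) + 1) ^ 2 * Real.pi ≤ 25 * (R : ℝ) ^ 2 * 4 :=
        mul_le_mul h4 (by linarith) h6.le (by positivity)
    _ = 100 * (R : ℝ) ^ 2 := by ring

/-- **Sum of the squares of the sizes** (lattice units). -/
theorem area_le {T : Temp} {R : ℕ} (hR1 : 1 ≤ R) (hR : Fits T R) {f φ : ℂ → ℂ} (h : RM T f φ)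
    (N : ℕ) : ∑ K ∈ boxes N, dU T (f (cen K)) ^ 2 ≤ 5760000 * (R : ℝ) ^ 2 := by
  have h1 := (cpair h).area (vol_UU hR1 hR).1 N
  have h2 := (vol_UU hR1 hR).2
  have h3 : ∑ K ∈ boxes N, dU T (f (cen K)) ^ 2 = ∑ K ∈ boxes N, size (UU T) f K ^ 2 := rfl
  rw [h3]
  linarith

/-! ### Scaling -/

theorem sqr_image (δ : ℝ) (a : ℂ) (x : Pt) :
    sqr δ a x = (fun z : ℂ => a + δ * z) '' sqr 1 0 x := by
  ext z
  constructor
  · rintro ⟨s, t, h1, h2, h3, h4, rfl⟩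
    exact ⟨_, ⟨s, t, h1, h2, h3, h4, rfl⟩, by simp⟩
  · rintro ⟨_, ⟨s, t, h1, h2, h3, h4, rfl⟩, rfl⟩
    exact ⟨s, t, h1, h2, h3, h4, by simp⟩

theorem region_image (δ : ℝ) (a : ℂ) (F : Set Pt) :
    region δ a F = (fun z : ℂ => a + δ * z) '' region 1 0 F := by
  unfold region
  rw [image_iUnion₂]
  simp_rw [← sqr_image]

/-- the scaling -/
noncomputable def sh {δ : ℝ} (hδ : 0 < δ) (a : ℂ) : ℂ ≃ₜ ℂ where
  toFun z := a + δ * z
  invFun z := (z - a) / δ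
  left_inv z := by
    have : (δ : ℂ) ≠ 0 := by exact_mod_cast hδ.ne'
    simp only [add_sub_cancel_left]
    exact mul_div_cancel_left₀ _ this
  right_inv z := by
    have : (δ : ℂ) ≠ 0 := by exact_mod_cast hδ.ne'
    show a + δ * ((z - a) / δ) = z
    rw [mul_div_cancel₀ _ this]
    ring
  continuous_toFun := by fun_prop
  continuous_invFun := by fun_prop

theorem interior_image {δ : ℝ} (hδ : 0 < δ) (a : ℂ) (T : Temp) :
    interior (region δ a T.faceSet) = (fun z : ℂ => a + δ * z) '' UU T := by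
  rw [region_image]
  exact ((sh hδ a).image_interior (region 1 0 T.faceSet)).symm

theorem mem_UU_iff {δ : ℝ} (hδ : 0 < δ) (a : ℂ) (T : Temp) (z : ℂ) :
    a + δ * z ∈ interior (region δ a T.faceSet) ↔ z ∈ UU T := by
  rw [interior_image hδ]
  exact (sh hδ a).injective.mem_set_image

theorem mem_UU_iff' {δ : ℝ} (hδ : 0 < δ) (a : ℂ) (T : Temp) (z : ℂ) :
    z ∈ interior (region δ a T.faceSet) ↔ (z - a) / δ ∈ UU T := by
  have h1 := mem_UU_iff hδ a T ((z - a) / δ)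
  have h2 : a + δ * ((z - a) / δ) = z := (sh hδ a).right_inv z
  rw [h2] at h1
  exact h1

/-- [STAT] with hypotheses in lattice units: any holomorphic map of the polygon to the disc -/
theorem stat_hol {Ω : Set ℂ} (hΩ : IsOpen Ω) (hb : Bornology.IsBounded Ω)
    (hc : IsPreconnected Ω) {x0 : ℂ} (hx0 : x0 ∈ Ω) (S : TempApprox Ω) {r : ℝ} (hr : 0 < r) :
    ∃ ε : ℝ, 0 < ε ∧ ∀ᶠ n in atTop, (x0 - S.a n) / S.δ n ∈ UU (S.T n) ∧
      ∀ φ : ℂ → ℂ, DifferentiableOn ℂ φ (UU (S.T n)) →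
        (∀ z ∈ UU (S.T n), φ z ∈ ball (0 : ℂ) 1) → ∀ z ∈ UU (S.T n), r / S.δ n ≤ dU (S.T n) z →
          ε * (1 - ‖φ ((x0 - S.a n) / S.δ n)‖) ≤ 1 - ‖φ z‖ := by
  obtain ⟨c, hc0, h⟩ := conf_central hΩ hb hc hx0 S hr
  refine ⟨c, hc0, ?_⟩
  filter_upwards [h] with n hn
  have hδ := S.pos n
  have hδC : ((S.δ n : ℝ) : ℂ) ≠ 0 := by exact_mod_cast hδ.ne'
  refine ⟨(mem_UU_iff' hδ (S.a n) (S.T n) x0).1 hn.1, ?_⟩
  intro φ h1 h2 z hz hd
  have h3 := hn.2 (fun y => φ ((y - S.a n) / S.δ n)) (by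
      refine h1.comp (by fun_prop) ?_
      intro y hy
      exact (mem_UU_iff' hδ (S.a n) (S.T n) y).1 hy)
    (fun y hy => mem_ball_zero_iff.1 (h2 _ ((mem_UU_iff' hδ (S.a n) (S.T n) y).1 hy)))
    (S.a n + S.δ n * z) (interior_subset ((mem_UU_iff hδ (S.a n) (S.T n) z).2 hz)) (by
      intro b hb'
      have hb1 : (b - S.a n) / S.δ n ∉ UU (S.T n) := by
        rw [← mem_UU_iff' hδ (S.a n) (S.T n) b]
        exact hb'.2
      have h4 : r / S.δ n ≤ dist z ((b - S.a n) / S.δ n) := hd.trans (infDist_le_dist_of_mem hb1)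
      rw [div_le_iff₀ hδ, dist_eq_norm] at h4
      rw [dist_eq_norm]
      have e : S.a n + S.δ n * z - b = (z - (b - S.a n) / S.δ n) * S.δ n := by
        field_simp
        ring
      rw [e, norm_mul, Complex.norm_real, Real.norm_eq_abs, abs_of_pos hδ]
      exact h4)
  have e : (S.a n + S.δ n * z - S.a n) / S.δ n = z := by
    rw [add_sub_cancel_left]
    exact mul_div_cancel_left₀ _ hδC
  simp only [e] at h3
  exact h3

/-- [STAT] -/
theorem stat : STAT := by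
  intro Ω hΩ hb hsc S z₀ hz₀ r hr
  have hc : IsPreconnected Ω := by
    have := hsc
    exact isPreconnected_iff_preconnectedSpace.2 inferInstance
  obtain ⟨ε, hε, h⟩ := stat_hol hΩ hb hc hz₀ S hr
  refine ⟨ε, hε, ?_⟩
  filter_upwards [h] with n hn f φ hRM hf0 z hz hd
  have h1 := hn.2 φ hRM.hφ hRM.maps' z hz hd
  have h2 : φ ((z₀ - S.a n) / S.δ n) = 0 := by
    rw [← hf0]
    exact hRM.left 0 (mem_ball_self one_pos)
  rw [h2, norm_zero, sub_zero, mul_one] at h1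
  exact h1

/-- **Boxes of macroscopic size have bounded generation**, uniformly in the approximation. -/
theorem gen_le {Ω : Set ℂ} (hΩ : IsOpen Ω) (hb : Bornology.IsBounded Ω)
    (hc : IsPreconnected Ω) {x0 : ℂ} (hx0 : x0 ∈ Ω) (S : TempApprox Ω) {r : ℝ} (hr : 0 < r) :
    ∃ n0 : ℕ, ∀ᶠ n in atTop, ∀ f φ, RM (S.T n) f φ → f 0 = (x0 - S.a n) / S.δ n →
      ∀ K : ℕ × ℕ, ∀ w ∈ dbox K, r / S.δ n ≤ dU (S.T n) (f w) → K.1 ≤ n0 := by
  obtain ⟨ε, hε, h⟩ := stat_hol hΩ hb hc hx0 S hr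
  obtain ⟨n0, hn0⟩ := exists_pow_lt_of_lt_one hε (show (1 / 2 : ℝ) < 1 by norm_num)
  refine ⟨n0, ?_⟩
  filter_upwards [h] with n hn f φ hRM hf0 K w hw hd
  have hwb := dbox_ball hw
  have h1 := hn.2 φ hRM.hφ hRM.maps' (f w) (hRM.maps w hwb) hd
  have h2 : φ ((x0 - S.a n) / S.δ n) = 0 := by
    rw [← hf0]
    exact hRM.left 0 (mem_ball_self one_pos)
  rw [h2, norm_zero, sub_zero, mul_one, hRM.left w hwb] at h1
  have h3 := (dbox_norm hw).2
  by_contra hlt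
  push Not at hlt
  have h4 : (1 / 2 : ℝ) ^ K.1 ≤ (1 / 2) ^ n0 :=
    pow_le_pow_of_le_one (by norm_num) (by norm_num) hlt.le
  linarith

/-- points of the same box have comparable distances to the boundary -/
theorem box_comp {T : Temp} {f φ : ℂ → ℂ} (h : RM T f φ) {K : ℕ × ℕ} {w w' : ℂ}
    (hw : w ∈ dbox K) (hw' : w' ∈ dbox K) : dU T (f w') ≤ dU T (f w) * Real.exp 140 := by
  have hp : (0 : ℝ) < (1 / 2) ^ (K.1 + 1) := by positivity
  have h1 := (cpair h).del_near (w := w) (w' := w') (M := 14) (by norm_num) hp (dbox_norm hw).1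
    (dbox_norm hw').1 (by
      refine (dbox_diam hw' hw).trans ?_
      rw [pow_succ]
      linarith)
  have h2 : (10 * 14 : ℝ) = 140 := by norm_num
  rw [h2] at h1
  exact h1

theorem dU_pos {T : Temp} {f φ : ℂ → ℂ} (h : RM T f φ) {w : ℂ} (hw : w ∈ ball (0 : ℂ) 1) :
    0 < dU T (f w) := (cpair h).del_pos hw

/-- **Vertical chains** (lattice units). -/
theorem chain_le {T : Temp} {f φ : ℂ → ℂ} (h : RM T f φ) {Q : ℝ} (hQ : 1 ≤ Q) {I I' : ℕ × ℕ}
    {m m' : ℕ} (hm : m ≤ I.1) (hm' : m' ≤ I'.1) {z z' : ℂ} (hz : z ∈ dbox I) (hz' : z' ∈ dbox I')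
    (h1 : (1 / 2 : ℝ) ^ (I.1 - m) ≤ Q * (1 / 2) ^ (I'.1 - m'))
    (h2 : (1 / 2 : ℝ) ^ (I'.1 - m') ≤ Q * (1 / 2) ^ (I.1 - m))
    (h3 : ‖z - z'‖ ≤ Q * (1 / 2) ^ (I.1 - m)) (h4 : ‖z - z'‖ ≤ Q * (1 / 2) ^ (I'.1 - m')) :
    ‖f z - f z'‖ ≤ (2 * Real.exp 200 + Real.exp (220 * Q)) *
      (∑ i ∈ Finset.range (m + 1), dU T (f (cen (anc I i))) +
        ∑ i ∈ Finset.range (m' + 1), dU T (f (cen (anc I' i)))) :=
  (cpair h).chain hQ hm hm' hz hz' h1 h2 h3 h4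

end Vale.Agent.P155.BD276
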