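import Vale.Agent.P155.BD276.Koebe

/-!
# P155, block BD: conformal pairs, distance to the boundary
-/

namespace Vale.Agent.P155.BD276

open Set Metric Filter Topology ComplexConjugate

/-- `f : unit disc → D` conformal with inverse `g`. -/
structure CPair (D : Set ℂ) (f g : ℂ → ℂ) : Prop where
  opn : IsOpen D
  ne : Dᶜ.Nonempty
  hf : DifferentiableOn ℂ f (ball 0 1)
  hg : DifferentiableOn ℂ g D
  fD : ∀ w ∈ ball (0 : ℂ) 1, f w ∈ D ∧ g (f w) = w
  gB : ∀ z ∈ D, g z ∈ ball (0 : ℂ) 1 ∧ f (g z) = z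

/-- the distance of `f w` to the complement of `D` -/
noncomputable def del (D : Set ℂ) (f : ℂ → ℂ) (w : ℂ) : ℝ := infDist (f w) Dᶜ

variable {D : Set ℂ} {f g : ℂ → ℂ}

theorem del_nonneg (w : ℂ) : 0 ≤ del D f w := infDist_nonneg

theorem ball_del_sub (w : ℂ) : ball (f w) (del D f w) ⊆ D := ball_infDist_compl_subset

theorem del_le (w w' : ℂ) : del D f w' ≤ del D f w + ‖f w' - f w‖ := by
  unfold del
  have := infDist_le_infDist_add_dist (s := Dᶜ) (x := f w') (y := f w)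
  rwa [dist_eq_norm] at this

theorem CPair.inj (h : CPair D f g) : InjOn f (ball 0 1) := by
  intro x hx y hy hxy
  rw [← (h.fD x hx).2, ← (h.fD y hy).2, hxy]

theorem CPair.del_pos (h : CPair D f g) {w : ℂ} (hw : w ∈ ball (0 : ℂ) 1) : 0 < del D f w := by
  unfold del
  have h1 : f w ∉ closure Dᶜ := by
    rw [h.opn.isClosed_compl.closure_eq]
    exact fun h2 => h2 (h.fD w hw).1
  exact (infDist_pos_iff_notMem_closure h.ne).1 h1

/-- Koebe -/
theorem CPair.quarter (h : CPair D f g) {w : ℂ} (hw : w ∈ ball (0 : ℂ) 1) :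
    (1 - ‖w‖) * ‖deriv f w‖ / 10 ≤ del D f w := by
  have hw1 : 0 < 1 - ‖w‖ := by
    rw [mem_ball_zero_iff] at hw
    linarith
  have hsub : ball w (1 - ‖w‖) ⊆ ball 0 1 := by
    apply ball_subset_ball'
    rw [dist_zero_right]
    linarith
  have h1 := koebe_image hw1 (h.hf.mono hsub) (h.inj.mono hsub)
  have h2 : ball (f w) ((1 - ‖w‖) * ‖deriv f w‖ / 10) ⊆ D := by
    refine h1.trans ?_
    rintro _ ⟨y, hy, rfl⟩
    exact (h.fD y (hsub hy)).1
  unfold del
  refine (le_infDist h.ne).2 ?_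
  intro y hy
  by_contra hc
  push Not at hc
  exact hy (h2 (by rw [mem_ball, dist_comm]; exact hc))

theorem CPair.deriv_mul (h : CPair D f g) {w : ℂ} (hw : w ∈ ball (0 : ℂ) 1) :
    deriv g (f w) * deriv f w = 1 := by
  have hfw : HasDerivAt f (deriv f w) w :=
    ((h.hf w hw).differentiableAt (isOpen_ball.mem_nhds hw)).hasDerivAt
  have hgw : HasDerivAt g (deriv g (f w)) (f w) :=
    ((h.hg _ (h.fD w hw).1).differentiableAt (h.opn.mem_nhds (h.fD w hw).1)).hasDerivAt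
  have h1 : HasDerivAt (fun z => g (f z)) (deriv g (f w) * deriv f w) w := hgw.comp w hfw
  have h2 : (fun z => g (f z)) =ᶠ[𝓝 w] fun z => z := by
    filter_upwards [isOpen_ball.mem_nhds hw] with z hz
    exact (h.fD z hz).2
  exact (h1.congr_of_eventuallyEq h2.symm).unique (hasDerivAt_id w)

/-- Schwarz -/
theorem CPair.schwarz (h : CPair D f g) {w : ℂ} (hw : w ∈ ball (0 : ℂ) 1) :
    del D f w ≤ (1 - ‖w‖ ^ 2) * ‖deriv f w‖ := by
  have hw1 : ‖w‖ < 1 := mem_ball_zero_iff.1 hw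
  have hd := h.del_pos hw
  have hww : 0 < 1 - ‖w‖ ^ 2 := by nlinarith [norm_nonneg w]
  set ψ : ℂ → ℂ := fun z => (g z - w) / (1 - conj w * g z) with hψ
  have hgD : ∀ z ∈ ball (f w) (del D f w), ‖g z‖ < 1 := fun z hz =>
    mem_ball_zero_iff.1 (h.gB z (ball_del_sub w hz)).1
  have hdiff : DifferentiableOn ℂ ψ (ball (f w) (del D f w)) := by
    have hg' := h.hg.mono (ball_del_sub (D := D) (f := f) w)
    refine DifferentiableOn.div (hg'.sub_const w) ?_ ?_
    · exact (differentiableOn_const 1).sub (hg'.const_mul (conj w))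
    · intro z hz
      exact den_ne hw1 (hgD z hz)
  have hψ0 : ψ (f w) = 0 := by simp only [hψ, (h.fD w hw).2, sub_self, zero_div]
  have hmaps : MapsTo ψ (ball (f w) (del D f w)) (ball (ψ (f w)) 1) := by
    intro z hz
    rw [hψ0, mem_ball_zero_iff]
    exact mob_lt hw1 (hgD z hz)
  have h1 := Complex.norm_deriv_le_div_of_mapsTo_ball hdiff (hmaps.mono_right ball_subset_closedBall) hd
  have hgw : HasDerivAt g (deriv g (f w)) (f w) :=
    ((h.hg _ (h.fD w hw).1).differentiableAt (h.opn.mem_nhds (h.fD w hw).1)).hasDerivAt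
  have hcc : (1 : ℂ) - conj w * w = ((1 - ‖w‖ ^ 2 : ℝ) : ℂ) := by
    rw [← Complex.normSq_eq_conj_mul_self, Complex.normSq_eq_norm_sq]
    push_cast
    ring
  have h2 : HasDerivAt ψ (deriv g (f w) / ((1 - ‖w‖ ^ 2 : ℝ) : ℂ)) (f w) := by
    have h3 := (hgw.sub_const w).div ((hgw.const_mul (conj w)).const_sub 1)
      (by rw [(h.fD w hw).2]; exact den_ne hw1 hw1)
    refine h3.congr_deriv ?_
    rw [(h.fD w hw).2, hcc, sub_self, zero_mul, sub_zero]
    have : ((1 - ‖w‖ ^ 2 : ℝ) : ℂ) ≠ 0 := by exact_mod_cast hww.ne'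
    field_simp
  rw [h2.deriv, norm_div, Complex.norm_real, Real.norm_eq_abs, abs_of_pos hww] at h1
  have h4 : ‖deriv g (f w)‖ * ‖deriv f w‖ = 1 := by
    rw [← norm_mul, h.deriv_mul hw, norm_one]
  rw [div_le_div_iff₀ hww hd] at h1
  have h5 : 0 ≤ ‖deriv f w‖ := norm_nonneg _
  calc del D f w = del D f w * (‖deriv g (f w)‖ * ‖deriv f w‖) := by rw [h4, mul_one]
    _ = (‖deriv g (f w)‖ * del D f w) * ‖deriv f w‖ := by ring
    _ ≤ (1 * (1 - ‖w‖ ^ 2)) * ‖deriv f w‖ := mul_le_mul_of_nonneg_right h1 h5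
    _ = (1 - ‖w‖ ^ 2) * ‖deriv f w‖ := by ring

/-- comparison of two points at bounded hyperbolic distance -/
theorem CPair.near (h : CPair D f g) {w w' : ℂ} {M t : ℝ} (hM : 0 < M) (ht : 0 < t)
    (h1 : t ≤ 1 - ‖w‖) (h2 : t ≤ 1 - ‖w'‖) (h3 : ‖w' - w‖ ≤ M * t) :
    ‖f w' - f w‖ ≤ del D f w * (Real.exp (10 * M) - 1) := by
  set c : ℝ → ℂ := fun s => w + (s : ℂ) * (w' - w) with hc
  have hcn : ∀ s ∈ Icc (0 : ℝ) 1, t ≤ 1 - ‖c s‖ := by
    intro s hs
    have e : c s = ((1 - s : ℝ) : ℂ) * w + (s : ℂ) * w' := by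
      simp only [hc]
      push_cast
      ring
    have h4 : ‖c s‖ ≤ (1 - s) * ‖w‖ + s * ‖w'‖ := by
      rw [e]
      refine (norm_add_le _ _).trans (le_of_eq ?_)
      rw [norm_mul, norm_mul, Complex.norm_real, Complex.norm_real, Real.norm_eq_abs,
        Real.norm_eq_abs, abs_of_nonneg hs.1, abs_of_nonneg (by linarith [hs.2])]
    have h5 : 0 ≤ 1 - s := by linarith [hs.2]
    nlinarith [hs.1]
  have hcb : ∀ s ∈ Icc (0 : ℝ) 1, c s ∈ ball (0 : ℂ) 1 := by
    intro s hs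
    rw [mem_ball_zero_iff]
    linarith [hcn s hs]
  have hcd : ∀ s : ℝ, HasDerivAt c (w' - w) s := by
    intro s
    have h4 : HasDerivAt (fun s : ℝ => (s : ℂ)) 1 s := Complex.ofRealCLM.hasDerivAt
    have h5 := (h4.mul_const (w' - w)).const_add w
    rw [one_mul] at h5
    exact h5
  have hfat : ∀ s ∈ Icc (0 : ℝ) 1, HasDerivAt (fun s => f (c s) - f w)
      (deriv f (c s) * (w' - w)) s := by
    intro s hs
    have h4 : HasDerivAt f (deriv f (c s)) (c s) :=
      ((h.hf _ (hcb s hs)).differentiableAt (isOpen_ball.mem_nhds (hcb s hs))).hasDerivAt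
    have h5 := (h4.comp_of_eq s (hcd s) rfl).sub_const (f w)
    exact h5
  have hK : (0 : ℝ) < 10 * M := by positivity
  have hg := norm_le_gronwallBound_of_norm_deriv_right_le
    (f := fun s => f (c s) - f w) (f' := fun s => deriv f (c s) * (w' - w)) (δ := 0)
    (K := 10 * M) (ε := 10 * M * del D f w) (a := 0) (b := 1)
    (fun s hs => (hfat s hs).continuousAt.continuousWithinAt)
    (fun s hs => (hfat s ⟨hs.1, hs.2.le⟩).hasDerivWithinAt)
    (by simp [hc])
    (by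
      intro s hs
      have hs' : s ∈ Icc (0 : ℝ) 1 := ⟨hs.1, hs.2.le⟩
      have h4 := h.quarter (hcb s hs')
      have h5 := hcn s hs'
      have h6 : t * ‖deriv f (c s)‖ ≤ 10 * del D f (c s) := by
        have h7 : t * ‖deriv f (c s)‖ ≤ (1 - ‖c s‖) * ‖deriv f (c s)‖ :=
          mul_le_mul_of_nonneg_right h5 (norm_nonneg _)
        linarith
      have h8 := del_le (D := D) (f := f) w (c s)
      rw [norm_mul]
      calc ‖deriv f (c s)‖ * ‖w' - w‖ ≤ ‖deriv f (c s)‖ * (M * t) :=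
            mul_le_mul_of_nonneg_left h3 (norm_nonneg _)
        _ = M * (t * ‖deriv f (c s)‖) := by ring
        _ ≤ M * (10 * del D f (c s)) := mul_le_mul_of_nonneg_left h6 hM.le
        _ ≤ M * (10 * (del D f w + ‖f (c s) - f w‖)) := by
            apply mul_le_mul_of_nonneg_left _ hM.le
            linarith
        _ = 10 * M * ‖f (c s) - f w‖ + 10 * M * del D f w := by ring)
    1 ⟨zero_le_one, le_rfl⟩
  simp only [hc, Complex.ofReal_one, one_mul, add_sub_cancel] at hg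
  rw [gronwallBound_of_K_ne_0 hK.ne'] at hg
  refine hg.trans (le_of_eq ?_)
  simp only [zero_mul, zero_add, sub_zero, mul_one]
  rw [mul_div_cancel_left₀ _ hK.ne']

theorem CPair.del_near (h : CPair D f g) {w w' : ℂ} {M t : ℝ} (hM : 0 < M) (ht : 0 < t)
    (h1 : t ≤ 1 - ‖w‖) (h2 : t ≤ 1 - ‖w'‖) (h3 : ‖w' - w‖ ≤ M * t) :
    del D f w' ≤ del D f w * Real.exp (10 * M) := by
  have h4 := h.near hM ht h1 h2 h3
  have h5 := del_le (D := D) (f := f) w w'
  linarith

end Vale.Agent.P155.BD276
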