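import Vale.Agent.P155.FinalStmt
import Vale.Agent.P155.BD276.Harn

/-!
# P155, block BD: points far from the boundary of the polygon are conformally central

`conf_central`: for `r > 0` there is `c > 0` such that for all large `n` and all holomorphic maps
`g` of the interior of the polygon to the unit disc: `c (1 - |g x0|) ≤ 1 - |g z|` at all points `z`
at distance at least `r` from the boundary of the polygon.
-/

namespace Vale.Agent.P155.BD276

open Set Metric Filter Topology

/-- the interior of the polygon number `n` -/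
def Dn {Ω : Set ℂ} (S : TempApprox Ω) (n : ℕ) : Set ℂ :=
  interior (region (S.δ n) (S.a n) (S.T n).faceSet)

/-- the boundary of the polygon number `n` -/
def Bn {Ω : Set ℂ} (S : TempApprox Ω) (n : ℕ) : Set ℂ :=
  frontier (region (S.δ n) (S.a n) (S.T n).faceSet)

/-- a point near `Ω` and far from `∂Ω` is in `Ω` -/
theorem mem_of_near {Ω : Set ℂ} (hΩ : IsOpen Ω) {z : ℂ} {r ε : ℝ} (hε : ε ≤ r)
    (h1 : z ∈ thickening ε Ω) (h2 : ∀ b ∈ frontier Ω, r ≤ dist z b) : z ∈ Ω := by
  by_contra hz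
  obtain ⟨w, hw, hd⟩ := mem_thickening_iff.1 h1
  -- the segment from `z` to `w` meets the frontier
  have hseg : IsPreconnected (segment ℝ z w) := (convex_segment z w).isPreconnected
  obtain ⟨b, hb, hbf⟩ : (segment ℝ z w ∩ frontier Ω).Nonempty := by
    by_contra hne
    rw [not_nonempty_iff_eq_empty] at hne
    have hcov : segment ℝ z w ⊆ Ω ∪ (closure Ω)ᶜ := by
      intro y hy
      by_cases hyc : y ∈ closure Ω
      · left
        by_contra hyΩ
        have : y ∈ frontier Ω := by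
          rw [hΩ.frontier_eq]
          exact ⟨hyc, hyΩ⟩
        exact (hne ▸ (⟨hy, this⟩ : y ∈ segment ℝ z w ∩ frontier Ω) : y ∈ (∅ : Set ℂ))
      · exact Or.inr hyc
    obtain ⟨y, _, hy1, hy2⟩ := hseg Ω (closure Ω)ᶜ hΩ isClosed_closure.isOpen_compl hcov
      ⟨w, right_mem_segment ℝ z w, hw⟩
      ⟨z, left_mem_segment ℝ z w, by
        rcases hcov (left_mem_segment ℝ z w) with h | h
        · exact absurd h hz
        · exact h⟩
    exact hy2 (subset_closure hy1)
  have h3 := h2 b hbf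
  have h4 : dist z b ≤ dist z w := by
    obtain ⟨s, t, hs, ht, hst, rfl⟩ := hb
    rw [dist_eq_norm, dist_eq_norm]
    have e : z - (s • z + t • w) = t • (z - w) := by
      have : s = 1 - t := by linarith
      rw [this]
      module
    rw [e, norm_smul, Real.norm_eq_abs, abs_of_nonneg ht]
    have : t ≤ 1 := by linarith
    nlinarith [norm_nonneg (z - w)]
  linarith

/-- for large `n`, points of the polygon at distance `≥ r` from its boundary are in `Ω`, at
distance `≥ r / 2` from `∂Ω` -/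
theorem far_mem {Ω : Set ℂ} (hΩ : IsOpen Ω) (S : TempApprox Ω) {r : ℝ} (hr : 0 < r) :
    ∀ᶠ n in atTop, ∀ z ∈ region (S.δ n) (S.a n) (S.T n).faceSet,
      (∀ b ∈ Bn S n, r ≤ dist z b) → z ∈ Ω ∧ ∀ b ∈ frontier Ω, r / 2 ≤ dist z b := by
  filter_upwards [S.outer (r / 2) (half_pos hr), S.haus₂ (r / 2) (half_pos hr)] with n h1 h2 z hz hb
  have h3 : ∀ b ∈ frontier Ω, r / 2 ≤ dist z b := by
    intro b hbf
    obtain ⟨b', hb', hd⟩ := mem_thickening_iff.1 (h2 hbf)
    have h4 := hb b' hb'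
    have h5 := dist_triangle z b b'
    linarith
  exact ⟨mem_of_near hΩ le_rfl (h1 hz) h3, h3⟩

/-- **Points far from the boundary are conformally central.** -/
theorem conf_central {Ω : Set ℂ} (hΩ : IsOpen Ω) (hb : Bornology.IsBounded Ω)
    (hc : IsPreconnected Ω) {x0 : ℂ} (hx0 : x0 ∈ Ω) (S : TempApprox Ω) {r : ℝ} (hr : 0 < r) :
    ∃ c > 0, ∀ᶠ n in atTop, x0 ∈ Dn S n ∧ ∀ g : ℂ → ℂ, DifferentiableOn ℂ g (Dn S n) →
      (∀ z ∈ Dn S n, ‖g z‖ < 1) → ∀ z ∈ region (S.δ n) (S.a n) (S.T n).faceSet,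
        (∀ b ∈ Bn S n, r ≤ dist z b) → c * (1 - ‖g x0‖) ≤ 1 - ‖g z‖ := by
  set K : Set ℂ := {z | z ∈ Ω ∧ ∀ b ∈ frontier Ω, r / 2 ≤ dist z b} with hK
  have hKeq : K = {z | z ∈ closure Ω ∧ ∀ b ∈ frontier Ω, r / 2 ≤ dist z b} := by
    ext z
    constructor
    · rintro ⟨h1, h2⟩
      exact ⟨subset_closure h1, h2⟩
    · rintro ⟨h1, h2⟩
      refine ⟨?_, h2⟩
      by_contra hz
      have h3 : z ∈ frontier Ω := by
        rw [hΩ.frontier_eq]
        exact ⟨h1, hz⟩
      have := h2 z h3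
      rw [dist_self] at this
      linarith
  have hKc : IsCompact K := by
    rw [hKeq]
    have h1 : IsCompact (closure Ω) := hb.isCompact_closure
    have h2 : {z | z ∈ closure Ω ∧ ∀ b ∈ frontier Ω, r / 2 ≤ dist z b} =
        closure Ω ∩ ⋂ b ∈ frontier Ω, {z | r / 2 ≤ dist z b} := by
      ext z
      simp only [mem_ofPred_eq, mem_inter_iff, mem_iInter]
    rw [h2]
    apply h1.inter_right
    apply isClosed_biInter
    intro b _
    exact isClosed_le continuous_const (continuous_id.dist continuous_const)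
  obtain ⟨C, hC1, hC2, c, hc0, hC3⟩ := harnack hΩ hc hx0 hKc (fun z hz => hz.1)
  refine ⟨c, hc0, ?_⟩
  filter_upwards [far_mem hΩ S hr, S.cara₁ C hC2 hC1,
    S.cara₁ {x0} (singleton_subset_iff.2 hx0) isCompact_singleton] with n h1 h2 h3
  refine ⟨singleton_subset_iff.1 h3, ?_⟩
  intro g hg hm z hz hbz
  exact hC3 _ h2 g hg hm z (h1 z hz hbz)

end Vale.Agent.P155.BD276
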