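import Vale.Agent.P155.T733.Boxes
import Vale.Agent.P155.T733.Fjord
import Vale.Agent.P155.BD276.Conf
import Vale.Agent.P155.BD276.Size

/-!
# P155, block BD: static half of R5

`chain` : `|f z1 - f z2|` is at most a constant times the sum of the sizes of the boxes on the two
vertical chains.  `area` : the sum of the squares of the sizes is at most a constant times the area.
`gen_le` : boxes of size `≥ r` have bounded generation, uniformly in the approximation.
-/

namespace Vale.Agent.P155.BD276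

open Set Metric Filter Topology ComplexConjugate MeasureTheory
open T733

/-- the centre of a box -/
noncomputable def cen (K : ℕ × ℕ) : ℂ :=
  ((1 - 3 / 4 * (1 / 2) ^ K.1 : ℝ) : ℂ) * ee (((K.2 : ℝ) + 1 / 2) * (1 / 2) ^ K.1)

/-- the size of a box: distance of the image of its centre to the complement of `D` -/
noncomputable def size (D : Set ℂ) (f : ℂ → ℂ) (K : ℕ × ℕ) : ℝ := del D f (cen K)

variable {D : Set ℂ} {f g : ℂ → ℂ}

theorem size_nonneg (K : ℕ × ℕ) : 0 ≤ size D f K := infDist_nonneg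

theorem cen_mem (K : ℕ × ℕ) : cen K ∈ dbox K := by
  have hp : (0 : ℝ) < (1 / 2) ^ K.1 := by positivity
  refine ⟨_, _, ?_, ?_, ?_, ?_, rfl⟩
  · nlinarith
  · nlinarith
  · rw [pow_succ]; linarith
  · linarith

theorem dbox_norm {K : ℕ × ℕ} {w : ℂ} (hw : w ∈ dbox K) :
    (1 / 2 : ℝ) ^ (K.1 + 1) ≤ 1 - ‖w‖ ∧ 1 - ‖w‖ ≤ (1 / 2) ^ K.1 := by
  obtain ⟨θ, t, h1, h2, h3, h4, rfl⟩ := hw
  have hp1 : (1 / 2 : ℝ) ^ K.1 ≤ 1 := pow_le_one₀ (by norm_num) (by norm_num)
  rw [norm_mul, norm_ee, mul_one, Complex.norm_real, Real.norm_eq_abs,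
    abs_of_nonneg (by linarith)]
  constructor <;> linarith

theorem norm_cen (K : ℕ × ℕ) : 1 - ‖cen K‖ = 3 / 4 * (1 / 2) ^ K.1 := by
  have hp1 : (1 / 2 : ℝ) ^ K.1 ≤ 1 := pow_le_one₀ (by norm_num) (by norm_num)
  have hp : (0 : ℝ) < (1 / 2) ^ K.1 := by positivity
  unfold cen
  rw [norm_mul, norm_ee, mul_one, Complex.norm_real, Real.norm_eq_abs,
    abs_of_nonneg (by linarith)]
  ring

theorem dbox_ball {K : ℕ × ℕ} {w : ℂ} (hw : w ∈ dbox K) : w ∈ ball (0 : ℂ) 1 := by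
  have := (dbox_norm hw).1
  have hp : (0 : ℝ) < (1 / 2) ^ (K.1 + 1) := by positivity
  rw [mem_ball_zero_iff]
  linarith

/-- two points of the same box -/
theorem CPair.in_box (h : CPair D f g) {K : ℕ × ℕ} {w w' : ℂ} (hw : w ∈ dbox K)
    (hw' : w' ∈ dbox K) : ‖f w' - f w‖ ≤ del D f w * Real.exp 140 := by
  have hp : (0 : ℝ) < (1 / 2) ^ (K.1 + 1) := by positivity
  have h1 := h.near (w := w) (w' := w') (M := 14) (by norm_num) hp (dbox_norm hw).1
    (dbox_norm hw').1 (by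
      refine (dbox_diam hw' hw).trans ?_
      rw [pow_succ]
      linarith)
  have h2 := del_nonneg (D := D) (f := f) w
  have h3 : Real.exp (10 * 14) - 1 ≤ Real.exp 140 := by
    have : (10 * 14 : ℝ) = 140 := by norm_num
    rw [this]
    linarith
  exact h1.trans (mul_le_mul_of_nonneg_left h3 h2)

theorem norm_polar_sub {t t' θ θ' : ℝ} (ht : 0 ≤ t) (ht1 : t ≤ 1) :
    ‖((1 - t : ℝ) : ℂ) * ee θ - ((1 - t' : ℝ) : ℂ) * ee θ'‖ ≤ 7 * |θ - θ'| + |t - t'| := by
  have e : ((1 - t : ℝ) : ℂ) * ee θ - ((1 - t' : ℝ) : ℂ) * ee θ' =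
      ((1 - t : ℝ) : ℂ) * (ee θ - ee θ') + ((t' - t : ℝ) : ℂ) * ee θ' := by
    push_cast; ring
  rw [e]
  refine (norm_add_le _ _).trans ?_
  rw [norm_mul, norm_mul, norm_ee, mul_one, Complex.norm_real, Complex.norm_real,
    Real.norm_eq_abs, Real.norm_eq_abs, abs_sub_comm t']
  have k1 : |1 - t| ≤ 1 := by
    rw [abs_le]; constructor <;> linarith
  have k4 := norm_ee_sub_le θ θ'
  have hpi : Real.pi ≤ 3.15 := Real.pi_lt_d2.le
  have k5 : |1 - t| * ‖ee θ - ee θ'‖ ≤ 1 * (2 * Real.pi * |θ - θ'|) :=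
    mul_le_mul k1 k4 (norm_nonneg _) zero_le_one
  have k6 : 2 * Real.pi * |θ - θ'| ≤ 7 * |θ - θ'| :=
    mul_le_mul_of_nonneg_right (by linarith) (abs_nonneg _)
  linarith

/-- the angle of a point of a box, relative to an ancestor -/
theorem anc_angle {I : ℕ × ℕ} {m : ℕ} (hm : m ≤ I.1) {θ : ℝ}
    (h1 : (I.2 : ℝ) * (1 / 2) ^ I.1 ≤ θ) (h2 : θ ≤ ((I.2 : ℝ) + 1) * (1 / 2) ^ I.1) :
    ((anc I m).2 : ℝ) * (1 / 2) ^ (anc I m).1 ≤ θ ∧
      θ ≤ (((anc I m).2 : ℝ) + 1) * (1 / 2) ^ (anc I m).1 := by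
  unfold anc
  simp only
  have hp : (0 : ℝ) < (1 / 2) ^ I.1 := by positivity
  have e : (1 / 2 : ℝ) ^ (I.1 - m) = (1 / 2) ^ I.1 * 2 ^ m := by
    have h3 : (1 / 2 : ℝ) ^ I.1 = (1 / 2) ^ (I.1 - m) * (1 / 2) ^ m := by
      rw [← pow_add, Nat.sub_add_cancel hm]
    rw [h3, mul_assoc, ← mul_pow]
    norm_num
  rw [e]
  have h4 : I.2 / 2 ^ m * 2 ^ m ≤ I.2 := Nat.div_mul_le_self _ _
  have h5 : I.2 < (I.2 / 2 ^ m + 1) * 2 ^ m := by
    have := Nat.lt_div_mul_add (a := I.2) (b := 2 ^ m) (by positivity)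
    rw [add_mul, one_mul]
    exact this
  have h4' : ((I.2 / 2 ^ m : ℕ) : ℝ) * 2 ^ m ≤ I.2 := by exact_mod_cast h4
  have h5' : (I.2 : ℝ) + 1 ≤ (((I.2 / 2 ^ m : ℕ) : ℝ) + 1) * 2 ^ m := by exact_mod_cast h5
  constructor
  · calc ((I.2 / 2 ^ m : ℕ) : ℝ) * ((1 / 2) ^ I.1 * 2 ^ m)
        = (((I.2 / 2 ^ m : ℕ) : ℝ) * 2 ^ m) * (1 / 2) ^ I.1 := by ring
      _ ≤ I.2 * (1 / 2) ^ I.1 := mul_le_mul_of_nonneg_right h4' hp.le
      _ ≤ θ := h1
  · calc θ ≤ ((I.2 : ℝ) + 1) * (1 / 2) ^ I.1 := h2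
      _ ≤ ((((I.2 / 2 ^ m : ℕ) : ℝ) + 1) * 2 ^ m) * (1 / 2) ^ I.1 :=
          mul_le_mul_of_nonneg_right h5' hp.le
      _ = (((I.2 / 2 ^ m : ℕ) : ℝ) + 1) * ((1 / 2) ^ I.1 * 2 ^ m) := by ring

/-- distance of a point of a box to the centre of an ancestor -/
theorem norm_sub_cen_anc {I : ℕ × ℕ} {m : ℕ} (hm : m ≤ I.1) {z : ℂ} (hz : z ∈ dbox I) :
    ‖z - cen (anc I m)‖ ≤ 5 * (1 / 2) ^ (anc I m).1 := by
  obtain ⟨θ, t, h1, h2, h3, h4, rfl⟩ := hz
  have h5 := anc_angle hm h1 h2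
  have hp : (0 : ℝ) < (1 / 2) ^ (anc I m).1 := by positivity
  have hp1 : (1 / 2 : ℝ) ^ I.1 ≤ (1 / 2) ^ (anc I m).1 :=
    pow_le_pow_of_le_one (by norm_num) (by norm_num) (by unfold anc; simp only; omega)
  have hp2 : (1 / 2 : ℝ) ^ I.1 ≤ 1 := pow_le_one₀ (by norm_num) (by norm_num)
  have h30 : 0 ≤ t := le_trans (by positivity) h3
  unfold cen
  refine (norm_polar_sub h30 (by linarith)).trans ?_
  have k1 : |θ - ((((anc I m).2 : ℕ) : ℝ) + 1 / 2) * (1 / 2) ^ (anc I m).1| ≤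
      1 / 2 * (1 / 2) ^ (anc I m).1 := by
    rw [abs_le]
    constructor <;> nlinarith [h5.1, h5.2]
  have k2 : |t - 3 / 4 * (1 / 2) ^ (anc I m).1| ≤ (1 / 2) ^ (anc I m).1 := by
    rw [abs_le]
    constructor <;> linarith
  linarith

/-- a box and its parent -/
theorem CPair.parent (h : CPair D f g) {K : ℕ × ℕ} (hK : 1 ≤ K.1) :
    ‖f (cen (anc K 1)) - f (cen K)‖ ≤ size D f K * Real.exp 200 := by
  have hp : (0 : ℝ) < (1 / 2) ^ (K.1 + 1) := by positivity
  have e1 : (anc K 1).1 = K.1 - 1 := rfl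
  have e2 : (1 / 2 : ℝ) ^ (K.1 - 1) = 4 * (1 / 2) ^ (K.1 + 1) := by
    obtain ⟨n, hn⟩ : ∃ n, K.1 = n + 1 := ⟨K.1 - 1, by omega⟩
    rw [hn, Nat.add_sub_cancel, pow_succ, pow_succ]
    ring
  have h1 := h.near (w := cen K) (w' := cen (anc K 1)) (M := 20) (by norm_num) hp
    (by rw [norm_cen, pow_succ]; nlinarith [show (0:ℝ) < (1/2)^K.1 by positivity])
    (by rw [norm_cen, e1, e2]; linarith)
    (by
      rw [norm_sub_rev]
      refine (norm_sub_cen_anc hK (cen_mem K)).trans ?_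
      rw [e1, e2]
      linarith)
  have h2 := size_nonneg (D := D) (f := f) K
  have h3 : Real.exp (10 * 20) - 1 ≤ Real.exp 200 := by
    have : (10 * 20 : ℝ) = 200 := by norm_num
    rw [this]
    linarith
  exact h1.trans (mul_le_mul_of_nonneg_left h3 h2)

/-- the vertical chain -/
theorem CPair.vert (h : CPair D f g) {I : ℕ × ℕ} {m : ℕ} (hm : m ≤ I.1) :
    ‖f (cen (anc I m)) - f (cen I)‖ ≤
      Real.exp 200 * ∑ i ∈ Finset.range m, size D f (anc I i) := by
  induction m with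
  | zero => simp [anc_zero]
  | succ m ih =>
    rw [Finset.sum_range_succ, mul_add]
    have h1 := ih (by omega)
    have h2 := h.parent (K := anc I m) (by unfold anc; simp only; omega)
    rw [anc_anc] at h2
    have e : f (cen (anc I (m + 1))) - f (cen I) =
        (f (cen (anc I (m + 1))) - f (cen (anc I m))) + (f (cen (anc I m)) - f (cen I)) := by ring
    rw [e]
    refine (norm_add_le _ _).trans ?_
    rw [mul_comm (Real.exp 200) (size D f (anc I m))]
    linarith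

/-- **Vertical chains.** -/
theorem CPair.chain (h : CPair D f g) {Q : ℝ} (hQ : 1 ≤ Q) {I I' : ℕ × ℕ} {m m' : ℕ}
    (hm : m ≤ I.1) (hm' : m' ≤ I'.1) {z z' : ℂ} (hz : z ∈ dbox I) (hz' : z' ∈ dbox I')
    (h1 : (1 / 2 : ℝ) ^ (I.1 - m) ≤ Q * (1 / 2) ^ (I'.1 - m'))
    (h2 : (1 / 2 : ℝ) ^ (I'.1 - m') ≤ Q * (1 / 2) ^ (I.1 - m))
    (h3 : ‖z - z'‖ ≤ Q * (1 / 2) ^ (I.1 - m)) (h4 : ‖z - z'‖ ≤ Q * (1 / 2) ^ (I'.1 - m')) :
    ‖f z - f z'‖ ≤ (2 * Real.exp 200 + Real.exp (220 * Q)) *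
      (∑ i ∈ Finset.range (m + 1), size D f (anc I i) +
        ∑ i ∈ Finset.range (m' + 1), size D f (anc I' i)) := by
  set a : ℝ := (1 / 2) ^ (I.1 - m) with ha
  set a' : ℝ := (1 / 2) ^ (I'.1 - m') with ha'
  have ha0 : 0 < a := by positivity
  have ha0' : 0 < a' := by positivity
  have ea : (1 / 2 : ℝ) ^ (anc I m).1 = a := rfl
  have ea' : (1 / 2 : ℝ) ^ (anc I' m').1 = a' := rfl
  set S := ∑ i ∈ Finset.range (m + 1), size D f (anc I i) with hS
  set S' := ∑ i ∈ Finset.range (m' + 1), size D f (anc I' i) with hS'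
  have hs0 : ∀ K, 0 ≤ size D f K := size_nonneg
  have hSm : ∑ i ∈ Finset.range m, size D f (anc I i) + size D f (anc I m) = S := by
    rw [hS, Finset.sum_range_succ]
  have hSm' : ∑ i ∈ Finset.range m', size D f (anc I' i) + size D f (anc I' m') = S' := by
    rw [hS', Finset.sum_range_succ]
  have hSI : size D f I ≤ S := by
    rw [hS]
    have := Finset.single_le_sum (f := fun i => size D f (anc I i)) (fun i _ => hs0 _)
      (Finset.mem_range.2 (Nat.succ_pos m))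
    rwa [anc_zero] at this
  have hSI' : size D f I' ≤ S' := by
    rw [hS']
    have := Finset.single_le_sum (f := fun i => size D f (anc I' i)) (fun i _ => hs0 _)
      (Finset.mem_range.2 (Nat.succ_pos m'))
    rwa [anc_zero] at this
  have hsum0 : 0 ≤ ∑ i ∈ Finset.range m, size D f (anc I i) :=
    Finset.sum_nonneg fun i _ => hs0 _
  have hsum0' : 0 ≤ ∑ i ∈ Finset.range m', size D f (anc I' i) :=
    Finset.sum_nonneg fun i _ => hs0 _
  -- the five pieces
  have p1 : ‖f z - f (cen I)‖ ≤ size D f I * Real.exp 140 := h.in_box (cen_mem I) hz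
  have p1' : ‖f z' - f (cen I')‖ ≤ size D f I' * Real.exp 140 := h.in_box (cen_mem I') hz'
  have p2 := h.vert hm
  have p2' := h.vert hm'
  have p3 : ‖f (cen (anc I' m')) - f (cen (anc I m))‖ ≤
      size D f (anc I m) * Real.exp (220 * Q) := by
    have hn1 := norm_cen (anc I m)
    have hn2 := norm_cen (anc I' m')
    rw [ea] at hn1
    rw [ea'] at hn2
    have hd : ‖cen (anc I' m') - cen (anc I m)‖ ≤ 11 * Q * min a a' := by
      have q1 := norm_sub_cen_anc hm hz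
      have q2 := norm_sub_cen_anc hm' hz'
      rw [ea] at q1
      rw [ea'] at q2
      have e : cen (anc I' m') - cen (anc I m) =
          (z - cen (anc I m)) - (z' - cen (anc I' m')) - (z - z') := by ring
      have q3 : ‖cen (anc I' m') - cen (anc I m)‖ ≤ 5 * a + 5 * a' + ‖z - z'‖ := by
        rw [e]
        refine (norm_sub_le _ _).trans ?_
        have := norm_sub_le (z - cen (anc I m)) (z' - cen (anc I' m'))
        linarith
      rcases le_total a a' with hle | hle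
      · rw [min_eq_left hle]
        nlinarith
      · rw [min_eq_right hle]
        nlinarith
    have ht : 0 < min a a' / 2 := by positivity
    have h5 := h.near (w := cen (anc I m)) (w' := cen (anc I' m')) (M := 22 * Q)
      (t := min a a' / 2) (by linarith) ht
      (by rw [hn1]; have := min_le_left a a'; linarith)
      (by rw [hn2]; have := min_le_right a a'; linarith)
      (by linarith)
    refine h5.trans ?_
    have e10 : 10 * (22 * Q) = 220 * Q := by ring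
    rw [e10]
    exact mul_le_mul_of_nonneg_left (by linarith) (del_nonneg _)
  have e : f z - f z' = (f z - f (cen I)) - (f (cen (anc I m)) - f (cen I))
      - (f (cen (anc I' m')) - f (cen (anc I m))) + (f (cen (anc I' m')) - f (cen I'))
      - (f z' - f (cen I')) := by ring
  have hle : ‖f z - f z'‖ ≤ ‖f z - f (cen I)‖ + ‖f (cen (anc I m)) - f (cen I)‖ +
      ‖f (cen (anc I' m')) - f (cen (anc I m))‖ + ‖f (cen (anc I' m')) - f (cen I')‖ +
      ‖f z' - f (cen I')‖ := by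
    rw [e]
    refine (norm_sub_le _ _).trans (add_le_add ?_ le_rfl)
    refine (norm_add_le _ _).trans (add_le_add ?_ le_rfl)
    refine (norm_sub_le _ _).trans (add_le_add ?_ le_rfl)
    exact norm_sub_le _ _
  have hE : Real.exp 140 ≤ Real.exp 200 := Real.exp_le_exp.2 (by norm_num)
  have hE0 : 0 < Real.exp 200 := Real.exp_pos _
  have hEQ : 0 < Real.exp (220 * Q) := Real.exp_pos _
  have b1 : size D f I * Real.exp 140 ≤ S * Real.exp 200 :=
    mul_le_mul hSI hE (Real.exp_pos _).le ((hs0 I).trans hSI)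
  have b1' : size D f I' * Real.exp 140 ≤ S' * Real.exp 200 :=
    mul_le_mul hSI' hE (Real.exp_pos _).le ((hs0 I').trans hSI')
  have b2 : Real.exp 200 * ∑ i ∈ Finset.range m, size D f (anc I i) ≤ Real.exp 200 * S :=
    mul_le_mul_of_nonneg_left (by linarith [hs0 (anc I m)]) hE0.le
  have b2' : Real.exp 200 * ∑ i ∈ Finset.range m', size D f (anc I' i) ≤ Real.exp 200 * S' :=
    mul_le_mul_of_nonneg_left (by linarith [hs0 (anc I' m')]) hE0.le
  have b3 : size D f (anc I m) * Real.exp (220 * Q) ≤ S * Real.exp (220 * Q) :=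
    mul_le_mul_of_nonneg_right (by linarith) hEQ.le
  have hS'0 : 0 ≤ S' := by linarith [hs0 (anc I' m')]
  nlinarith [mul_nonneg hS'0 hEQ.le]

end Vale.Agent.P155.BD276
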